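import Vale.Agent.P202.Base
import Vale.Agent.P177.DetHom

/-!
# P177: Euler functionals on finite free complexes

A functional on complexes with a homotopy for an element of `W` (complement of finitely many
primes) that is invariant under isomorphisms, additive on termwise split extensions and zero on
contractible complexes.
-/

namespace Vale.Agent.P177.Det

open Matrix
open Vale.Agent.P202 (FreeCx)

variable {R : Type*} [CommRing R]

/-- `s` is a null homotopy of multiplication by `c`. -/
structure Hot (G : FreeCx R) (c : R) (s : Matrix G.ι G.ι R) : Prop where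
  pos : ∀ h g, s h g ≠ 0 → G.pos h = G.pos g + 1
  eq : G.mat * s + s * G.mat = c • 1

/-- Some element of `W` is null homotopic. -/
def Null (W : Submonoid R) (G : FreeCx R) : Prop := ∃ c ∈ W, ∃ s, Hot G c s

theorem Hot.smul {G : FreeCx R} {c : R} {s : Matrix G.ι G.ι R} (h : Hot G c s) (a : R) :
    Hot G (a * c) (a • s) where
  pos i j hij := h.pos i j fun h0 => hij (by simp [h0])
  eq := by rw [Matrix.mul_smul, Matrix.smul_mul, ← smul_add, h.eq, smul_smul]

/-- The shift by one, with negated differential. -/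
@[reducible] def shift (G : FreeCx R) : FreeCx R where
  ι := G.ι
  pos g := G.pos g + 1
  mat := -G.mat
  mat_pos h g hg := by
    have := G.mat_pos h g (by simpa using hg)
    omega
  sq := by rw [neg_mul_neg, G.sq]

theorem Hot.shift {G : FreeCx R} {c : R} {s : Matrix G.ι G.ι R} (h : Hot G c s) :
    Hot (shift G) c (-s : Matrix G.ι G.ι R) where
  pos i j hij := by
    change G.pos i + 1 = G.pos j + 1 + 1
    rw [h.pos i j (by simpa using hij)]
  eq := by
    change (-G.mat) * (-s) + (-s) * (-G.mat) = _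
    rw [neg_mul_neg, neg_mul_neg]; exact h.eq

/-- The extension of `K` by `H` with the connecting matrix `C`. -/
@[reducible] def tri (H K : FreeCx R) (C : Matrix H.ι K.ι R)
    (hp : ∀ a b, C a b ≠ 0 → K.pos b = H.pos a + 1) (hsq : H.mat * C + C * K.mat = 0) :
    FreeCx R where
  ι := H.ι ⊕ K.ι
  pos := Sum.elim H.pos K.pos
  mat := fromBlocks H.mat C 0 K.mat
  mat_pos := by
    rintro (a | a) (b | b) hne
    · exact H.mat_pos a b (by simpa using hne)
    · exact hp a b (by simpa using hne)
    · simp at hne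
    · exact K.mat_pos a b (by simpa using hne)
  sq := by
    rw [fromBlocks_multiply, H.sq, K.sq, hsq]
    simp

/-- An extension of null complexes is null. -/
theorem Hot.tri {H K : FreeCx R} {C : Matrix H.ι K.ι R} {hp hsq} {c c' : R}
    {s : Matrix H.ι H.ι R} {s' : Matrix K.ι K.ι R} (h : Hot H c s) (h' : Hot K c' s') :
    Hot (Det.tri H K C hp hsq) (c * c') (fromBlocks (c' • s) (-(s * C * s')) 0 (c • s')) where
  pos := by
    rintro (a | a) (b | b) hne
    · exact h.pos a b fun h0 => hne (by simp [h0])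
    · simp only [fromBlocks_apply₁₂, Matrix.neg_apply, ne_eq, neg_eq_zero] at hne
      rw [Matrix.mul_apply] at hne
      obtain ⟨e, -, he⟩ := Finset.exists_ne_zero_of_sum_ne_zero hne
      have hs' := left_ne_zero_of_mul he
      rw [Matrix.mul_apply] at hs'
      obtain ⟨u, -, hu⟩ := Finset.exists_ne_zero_of_sum_ne_zero hs'
      have e1 := h.pos _ _ (left_ne_zero_of_mul hu)
      have e2 := hp _ _ (right_ne_zero_of_mul hu)
      have e3 := h'.pos _ _ (right_ne_zero_of_mul he)
      change H.pos a = K.pos b + 1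
      omega
    · simp at hne
    · exact h'.pos a b fun h0 => hne (by simp [h0])
  eq := by
    change fromBlocks H.mat C 0 K.mat * _ + _ * fromBlocks H.mat C 0 K.mat = _
    rw [fromBlocks_multiply, fromBlocks_multiply, fromBlocks_add,
      ← fromBlocks_one, fromBlocks_smul]
    congr 1
    · simp only [Matrix.mul_zero, add_zero]
      rw [Matrix.mul_smul, Matrix.smul_mul, ← smul_add, h.eq, smul_smul, mul_comm]
    · have h1 : H.mat * s = c • 1 - s * H.mat := eq_sub_of_add_eq h.eq
      have h2 : s' * K.mat = c' • 1 - K.mat * s' := eq_sub_of_add_eq' h'.eq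
      have h3 : C * K.mat = -(H.mat * C) := eq_neg_of_add_eq_zero_right hsq
      simp only [Matrix.mul_neg, Matrix.neg_mul, Matrix.mul_smul, Matrix.smul_mul, smul_zero]
      rw [show H.mat * (s * C * s') = H.mat * s * (C * s') by simp only [Matrix.mul_assoc], h1,
        show s * C * s' * K.mat = s * C * (s' * K.mat) by simp only [Matrix.mul_assoc], h2]
      simp only [Matrix.sub_mul, Matrix.mul_sub, Matrix.smul_mul, Matrix.one_mul, Matrix.mul_smul,
        Matrix.mul_one]
      rw [show s * H.mat * (C * s') = s * (H.mat * C) * s' by simp only [Matrix.mul_assoc],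
        show s * C * (K.mat * s') = s * (C * K.mat) * s' by simp only [Matrix.mul_assoc], h3,
        Matrix.mul_neg, Matrix.neg_mul]
      abel
    · simp
    · simp only [Matrix.zero_mul, zero_add, add_zero]
      rw [Matrix.mul_smul, Matrix.smul_mul, ← smul_add, h'.eq, smul_smul]

/-- The two-term complex of a square matrix. -/
@[reducible] def two {n : ℕ} (M : Matrix (Fin n) (Fin n) R) : FreeCx R where
  ι := Fin n ⊕ Fin n
  pos := Sum.elim (fun _ => 0) (fun _ => 1)
  mat := fromBlocks 0 M 0 0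
  mat_pos := by rintro (a | a) (b | b) h <;> first | rfl | simp at h
  sq := by rw [fromBlocks_multiply]; simp

theorem Hot.two {n : ℕ} {M N : Matrix (Fin n) (Fin n) R} {c : R} (h₁ : M * N = c • 1)
    (h₂ : N * M = c • 1) : Hot (two M) c (fromBlocks 0 0 N 0) where
  pos := by rintro (a | a) (b | b) h <;> first | rfl | simp at h
  eq := by
    change fromBlocks 0 M 0 0 * _ + _ * fromBlocks 0 M 0 0 = _
    rw [fromBlocks_multiply, fromBlocks_multiply, fromBlocks_add, ← fromBlocks_one,
      fromBlocks_smul]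
    simp [h₁, h₂]

theorem two_null {W : Submonoid R} {n : ℕ} (M : Matrix (Fin n) (Fin n) R) (h : M.det ∈ W) :
    Null W (two M) :=
  ⟨_, h, _, Hot.two (Matrix.mul_adjugate M) (Matrix.adjugate_mul M)⟩

/-- The axioms. -/
structure Euler {A : Type*} [AddCommGroup A] (W : Submonoid R) (v : FreeCx R → A) : Prop where
  iso : ∀ (G H : FreeCx R) (P : Matrix H.ι G.ι R) (P' : Matrix G.ι H.ι R), Null W G →
    (∀ h g, P h g ≠ 0 → H.pos h = G.pos g) → (∀ g h, P' g h ≠ 0 → G.pos g = H.pos h) →
    P * P' = 1 → P' * P = 1 → P * G.mat = H.mat * P → v G = v H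
  tri : ∀ (H K : FreeCx R) (C : Matrix H.ι K.ι R) (hp) (hsq), Null W H → Null W K →
    v (Det.tri H K C hp hsq) = v H + v K
  contractible : ∀ (G : FreeCx R) (s : Matrix G.ι G.ι R), Hot G 1 s → v G = 0

variable {A : Type*} [AddCommGroup A] {W : Submonoid R} {v : FreeCx R → A} (hv : Euler W v)

include hv

namespace Euler

/-- Reindexing. -/
theorem equiv (G H : FreeCx R) (e : H.ι ≃ G.ι) (hG : Null W G)
    (hpos : ∀ h, G.pos (e h) = H.pos h) (hmat : ∀ a b, G.mat (e a) (e b) = H.mat a b) :
    v G = v H := by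
  refine hv.iso G H ((1 : Matrix G.ι G.ι R).submatrix e id) ((1 : Matrix G.ι G.ι R).submatrix id e)
    hG (fun h g hne => ?_) (fun g h hne => ?_) ?_ ?_ ?_
  · rw [submatrix_apply, one_apply] at hne
    split_ifs at hne with he
    · simp only [id] at he; rw [← he, hpos]
    · exact absurd rfl hne
  · rw [submatrix_apply, one_apply] at hne
    split_ifs at hne with he
    · simp only [id] at he; rw [he, hpos]
    · exact absurd rfl hne
  · rw [← Matrix.submatrix_mul _ _ e id e Function.bijective_id, Matrix.mul_one,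
      Matrix.submatrix_one_equiv]
  · rw [← Matrix.submatrix_mul _ _ id e id e.bijective, Matrix.mul_one, Matrix.submatrix_id_id]
  · have e1 : H.mat = G.mat.submatrix e e := by ext a b; exact (hmat a b).symm
    have e2 : G.mat = G.mat.submatrix id id := rfl
    conv_lhs => rw [e2]
    rw [e1, ← Matrix.submatrix_mul _ _ e id id Function.bijective_id,
      ← Matrix.submatrix_mul _ _ e e id e.bijective, Matrix.one_mul, Matrix.mul_one]

/-- The shift changes the sign. -/
theorem map_shift (G : FreeCx R) (hG : Null W G) : v (shift G) = -v G := by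
  obtain ⟨c, hc, s, hs⟩ := hG
  have hp : ∀ a b : G.ι, (1 : Matrix G.ι G.ι R) a b ≠ 0 → (shift G).pos b = G.pos a + 1 := by
    intro a b h
    rw [one_apply] at h
    split_ifs at h with e
    · rw [e]
    · exact absurd rfl h
  have hsq : G.mat * (1 : Matrix G.ι G.ι R) + (1 : Matrix G.ι G.ι R) * (-G.mat) = 0 := by simp
  have h := hv.tri G (shift G) (1 : Matrix G.ι G.ι R) hp hsq ⟨c, hc, s, hs⟩ ⟨c, hc, -s, hs.shift⟩
  have h0 : v (Det.tri G (shift G) (1 : Matrix G.ι G.ι R) hp hsq) = 0 := by
    refine hv.contractible _ (fromBlocks 0 0 (1 : Matrix G.ι G.ι R) 0) ⟨?_, ?_⟩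
    · rintro (a | a) (b | b) hne
      · simp at hne
      · simp at hne
      · simp only [fromBlocks_apply₂₁, one_apply] at hne
        split_ifs at hne with e
        · subst e; rfl
        · exact absurd rfl hne
      · simp at hne
    · change fromBlocks G.mat 1 0 (-G.mat) * _ + _ * fromBlocks G.mat 1 0 (-G.mat) = _
      rw [fromBlocks_multiply, fromBlocks_multiply, fromBlocks_add, one_smul, ← fromBlocks_one]
      simp
  rw [h0] at h
  exact eq_neg_of_add_eq_zero_right h.symm

theorem two_unit {n : ℕ} (M : Matrix (Fin n) (Fin n) R) (h : IsUnit M.det) : v (two M) = 0 :=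
  hv.contractible _ _ (Hot.two (N := M⁻¹) (c := 1) (by rw [one_smul, Matrix.mul_nonsing_inv M h])
    (by rw [one_smul, Matrix.nonsing_inv_mul M h]))

/-- Multiplicativity. -/
theorem two_mul {n : ℕ} (M N : Matrix (Fin n) (Fin n) R) (hM : M.det ∈ W) (hN : N.det ∈ W) :
    v (two (M * N)) = v (two M) + v (two N) := by
  have hm1 : (-1 : Matrix (Fin n) (Fin n) R) * (-1) = (1 : R) • 1 := by simp
  have hp : ∀ (a b : Fin n ⊕ Fin n),
      (fromBlocks 0 (-1) 0 0 : Matrix (Fin n ⊕ Fin n) (Fin n ⊕ Fin n) R) a b ≠ 0 →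
        (two M).pos b = (two N).pos a + 1 := by
    rintro (a | a) (b | b) h <;> first | rfl | simp at h
  have h1 : v (Det.tri (two N) (two M)
      (fromBlocks 0 (-1) 0 0 : Matrix (Fin n ⊕ Fin n) (Fin n ⊕ Fin n) R) hp
      (by simp [two, fromBlocks_multiply])) = v (two N) + v (two M) :=
    hv.tri _ _ _ _ _ (two_null N hN) (two_null M hM)
  have h2 : v (Det.tri (two (-1 : Matrix (Fin n) (Fin n) R)) (two (M * N))
      (0 : Matrix (Fin n ⊕ Fin n) (Fin n ⊕ Fin n) R) (fun a b h => absurd rfl h)
      (by simp)) = v (two (-1 : Matrix (Fin n) (Fin n) R)) + v (two (M * N)) :=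
    hv.tri _ _ _ _ _ ⟨1, one_mem _, _, Hot.two hm1 hm1⟩
      (two_null _ (by rw [Matrix.det_mul]; exact mul_mem hM hN))
  rw [hv.two_unit (-1) (IsUnit.of_mul_eq_one (-1 : Matrix (Fin n) (Fin n) R).det
    (by rw [← Matrix.det_mul]; simp))] at h2
  replace h2 := h2.trans (zero_add _)
  refine h2.symm.trans ?_
  rw [add_comm (v (two M)), ← h1]
  obtain ⟨c, hc, s, hs⟩ := two_null N hN
  obtain ⟨c', hc', s', hs'⟩ := two_null M hM
  refine (hv.iso _ _
    (fromBlocks (fromBlocks 1 0 0 (-N)) (fromBlocks 0 0 0 1) (fromBlocks M 0 0 1)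
      (fromBlocks 1 0 0 0))
    (fromBlocks (fromBlocks 1 0 0 0) (fromBlocks 0 0 0 1) (fromBlocks (-M) 0 0 1)
      (fromBlocks 1 0 0 N))
    ⟨c * c', mul_mem hc hc', _, hs.tri hs'⟩ ?_ ?_ ?_ ?_ ?_).symm
  · rintro ((a | a) | (a | a)) ((b | b) | (b | b)) h <;> first | rfl | simp at h
  · rintro ((a | a) | (a | a)) ((b | b) | (b | b)) h <;> first | rfl | simp at h
  · rw [← fromBlocks_one, ← fromBlocks_one]; simp [fromBlocks_multiply, fromBlocks_add, Matrix.fromBlocks_neg]
  · rw [← fromBlocks_one, ← fromBlocks_one]; simp [fromBlocks_multiply, fromBlocks_add, Matrix.fromBlocks_neg]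
  · simp [Det.tri, two, fromBlocks_multiply, fromBlocks_add, Matrix.fromBlocks_neg]

theorem isMatrixEuler (hW : ∀ a b : R, a * b ∈ W → a ∈ W) :
    IsMatrixEuler W (fun n (M : Matrix (Fin n) (Fin n) R) => v (two M)) where
  map_mul _ M N hM hN := hv.two_mul M N hM hN
  map_upper n M hM h0 := by
    have hd : M.det = M 0 0 * (M.submatrix Fin.succ Fin.succ).det := by
      rw [Matrix.det_succ_column_zero, Fin.sum_univ_succ]
      simp [h0]
    rw [hd] at hM
    have ha : (Matrix.of fun _ _ => M 0 0 : Matrix (Fin 1) (Fin 1) R).det ∈ W := by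
      simpa using hW _ _ hM
    have hb : (M.submatrix Fin.succ Fin.succ).det ∈ W := hW _ _ (mul_comm (M 0 0) _ ▸ hM)
    obtain ⟨c, hc, s, hs⟩ := two_null (Matrix.of fun _ _ => M 0 0 : Matrix (Fin 1) (Fin 1) R) ha
    obtain ⟨c', hc', s', hs'⟩ := two_null (M.submatrix Fin.succ Fin.succ) hb
    let C : Matrix (Fin 1 ⊕ Fin 1) (Fin n ⊕ Fin n) R :=
      fromBlocks 0 (Matrix.of fun _ j => M 0 j.succ) 0 0
    have hp : ∀ a b, C a b ≠ 0 → (two (M.submatrix Fin.succ Fin.succ)).pos b =
        (two (Matrix.of fun _ _ => M 0 0 : Matrix (Fin 1) (Fin 1) R)).pos a + 1 := by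
      rintro (a | a) (b | b) h <;> first | rfl | simp [C] at h
    have hsq : (two (Matrix.of fun _ _ => M 0 0 : Matrix (Fin 1) (Fin 1) R)).mat * C +
        C * (two (M.submatrix Fin.succ Fin.succ)).mat = 0 := by
      simp [two, C, fromBlocks_multiply]
    rw [← hv.tri _ _ C hp hsq ⟨c, hc, s, hs⟩ ⟨c', hc', s', hs'⟩]
    let e : Fin (n + 1) ≃ Fin 1 ⊕ Fin n := (finCongr (add_comm n 1)).trans finSumFinEquiv.symm
    have he0 : e 0 = Sum.inl 0 := by
      apply e.symm.injective; simp [e]; ext; simp
    have hes : ∀ i : Fin n, e i.succ = Sum.inr i := fun i => by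
      apply e.symm.injective; simp [e]
    refine (hv.equiv _ (two M) ((e.sumCongr e).trans (Equiv.sumSumSumComm _ _ _ _))
      ⟨c * c', mul_mem hc hc', _, hs.tri hs'⟩ ?_ ?_).symm
    · rintro (x | x) <;> cases x using Fin.cases <;> simp [he0, hes, Det.tri, two]
    · rintro (x | x) (y | y) <;> cases x using Fin.cases <;> cases y using Fin.cases <;>
        simp [he0, hes, Det.tri, two, C, h0]
  map_lower n M hM h0 := by
    have hd : M.det = M 0 0 * (M.submatrix Fin.succ Fin.succ).det := by
      rw [Matrix.det_succ_row_zero, Fin.sum_univ_succ]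
      simp [h0]
    rw [hd] at hM
    have ha : (Matrix.of fun _ _ => M 0 0 : Matrix (Fin 1) (Fin 1) R).det ∈ W := by
      simpa using hW _ _ hM
    have hb : (M.submatrix Fin.succ Fin.succ).det ∈ W := hW _ _ (mul_comm (M 0 0) _ ▸ hM)
    obtain ⟨c, hc, s, hs⟩ := two_null (Matrix.of fun _ _ => M 0 0 : Matrix (Fin 1) (Fin 1) R) ha
    obtain ⟨c', hc', s', hs'⟩ := two_null (M.submatrix Fin.succ Fin.succ) hb
    let C : Matrix (Fin n ⊕ Fin n) (Fin 1 ⊕ Fin 1) R :=
      fromBlocks 0 (Matrix.of fun i _ => M i.succ 0) 0 0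
    have hp : ∀ a b, C a b ≠ 0 →
        (two (Matrix.of fun _ _ => M 0 0 : Matrix (Fin 1) (Fin 1) R)).pos b =
          (two (M.submatrix Fin.succ Fin.succ)).pos a + 1 := by
      rintro (a | a) (b | b) h <;> first | rfl | simp [C] at h
    have hsq : (two (M.submatrix Fin.succ Fin.succ)).mat * C +
        C * (two (Matrix.of fun _ _ => M 0 0 : Matrix (Fin 1) (Fin 1) R)).mat = 0 := by
      simp [two, C, fromBlocks_multiply]
    rw [add_comm (v _), ← hv.tri _ _ C hp hsq ⟨c', hc', s', hs'⟩ ⟨c, hc, s, hs⟩]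
    let e : Fin (n + 1) ≃ Fin n ⊕ Fin 1 :=
      ((finCongr (add_comm n 1)).trans finSumFinEquiv.symm).trans (Equiv.sumComm _ _)
    have he0 : e 0 = Sum.inr 0 := by
      apply e.symm.injective; simp [e]; ext; simp
    have hes : ∀ i : Fin n, e i.succ = Sum.inl i := fun i => by
      apply e.symm.injective; simp [e]
    refine (hv.equiv _ (two M) ((e.sumCongr e).trans (Equiv.sumSumSumComm _ _ _ _))
      ⟨c' * c, mul_mem hc' hc, _, hs'.tri hs⟩ ?_ ?_).symm
    · rintro (x | x) <;> cases x using Fin.cases <;> simp [he0, hes, Det.tri, two]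
    · rintro (x | x) (y | y) <;> cases x using Fin.cases <;> cases y using Fin.cases <;>
        simp [he0, hes, Det.tri, two, C, h0]

end Euler

end Vale.Agent.P177.Det
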